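import Mathlib

/-!
# P033: circulant Hadamard matrices whose first row has product structure
-/

open Finset

namespace Vale.Agent.P033

/-- the periodic autocorrelation `P_h(t) = ∑_{j < n} h_j h_{(j + t) mod n}` -/
def autocorr (h : ℕ → ℤ) (n t : ℕ) : ℤ := ∑ j ∈ range n, h j * h ((j + t) % n)

/-- `h_0, …, h_{n-1}` are signs and form the first row of a circulant Hadamard matrix of order
`n`: all periodic autocorrelations `P_h(t)`, `1 ≤ t < n`, vanish -/
def IsCirculantHadamardRow (h : ℕ → ℤ) (n : ℕ) : Prop :=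
  (∀ j < n, h j = 1 ∨ h j = -1) ∧ ∀ t, 1 ≤ t → t < n → autocorr h n t = 0

theorem sum_range_mul' (f : ℕ → ℤ) (m k : ℕ) :
    ∑ n ∈ range (m * k), f n = ∑ j ∈ range k, ∑ i ∈ range m, f (m * j + i) := by
  induction k with
  | zero => simp
  | succ k ih => rw [Nat.mul_succ, Finset.sum_range_add, ih, Finset.sum_range_succ]

theorem autocorr_congr {h g : ℕ → ℤ} {n : ℕ} (H : ∀ j < n, h j = g j) (t : ℕ) :
    autocorr h n t = autocorr g n t := by
  unfold autocorr
  refine Finset.sum_congr rfl fun j hj => ?_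
  have hj' := Finset.mem_range.mp hj
  rw [H j hj', H _ (Nat.mod_lt _ (by omega))]

theorem sq_one {x : ℤ} (h : x = 1 ∨ x = -1) : x * x = 1 := by
  rcases h with h | h <;> simp [h]

/-- blocks: the first row is a concatenation of `k ≥ 2` blocks `± B` of length `m ≥ 2` -/
theorem blocks {m k : ℕ} (hm : 2 ≤ m) (hk : 2 ≤ k) (b c : ℕ → ℤ)
    (hb : ∀ i < m, b i = 1 ∨ b i = -1) (hc : ∀ j < k, c j = 1 ∨ c j = -1) :
    ¬ (autocorr (fun n => b (n % m) * c (n / m)) (m * k) m = 0 ∧
      autocorr (fun n => b (n % m) * c (n / m)) (m * k) (m - 1) = 0) := by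
  obtain ⟨M, rfl⟩ : ∃ M, m = M + 1 := ⟨m - 1, by omega⟩
  have hM : 0 < M + 1 := by omega
  rintro ⟨h1, h2⟩
  have e1 : ∀ j i, i < M + 1 → ((M + 1) * j + i) % (M + 1) = i := fun j i hi => by
    rw [Nat.mul_add_mod, Nat.mod_eq_of_lt hi]
  have e2 : ∀ j i, i < M + 1 → ((M + 1) * j + i) / (M + 1) = j := fun j i hi => by
    rw [Nat.mul_add_div hM, Nat.div_eq_of_lt hi, add_zero]
  have hR : autocorr (fun n => b (n % (M + 1)) * c (n / (M + 1))) ((M + 1) * k) (M + 1) =
      (M + 1) * ∑ j ∈ range k, c j * c ((j + 1) % k) := by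
    unfold autocorr
    rw [sum_range_mul', Finset.mul_sum]
    refine Finset.sum_congr rfl fun j hj => ?_
    have : ∀ i ∈ range (M + 1), b (((M + 1) * j + i) % (M + 1)) * c (((M + 1) * j + i) / (M + 1)) *
        (b (((M + 1) * j + i + (M + 1)) % ((M + 1) * k) % (M + 1)) *
          c (((M + 1) * j + i + (M + 1)) % ((M + 1) * k) / (M + 1))) = c j * c ((j + 1) % k) := by
      intro i hi
      have hi' := Finset.mem_range.mp hi
      have e3 : (M + 1) * j + i + (M + 1) = (M + 1) * (j + 1) + i := by ring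
      rw [Nat.mod_mul_right_mod, Nat.mod_mul_right_div_self, e3, e1 _ _ hi', e1 _ _ hi',
        e2 _ _ hi', e2 _ _ hi']
      have := sq_one (hb i hi')
      linear_combination (c j * c ((j + 1) % k)) * this
    rw [Finset.sum_congr rfl this]
    simp
  have hS : autocorr (fun n => b (n % (M + 1)) * c (n / (M + 1))) ((M + 1) * k) (M + 1 - 1) =
      (∑ i ∈ range M, b (i + 1) * b i) * (∑ j ∈ range k, c j * c ((j + 1) % k)) +
        k * (b 0 * b M) := by
    unfold autocorr
    rw [sum_range_mul', Finset.mul_sum]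
    have : (k : ℤ) * (b 0 * b M) = ∑ j ∈ range k, b 0 * b M := by simp
    rw [this, ← Finset.sum_add_distrib]
    refine Finset.sum_congr rfl fun j hj => ?_
    have hj' := Finset.mem_range.mp hj
    rw [Finset.sum_range_succ', Finset.sum_mul]
    congr 1
    · refine Finset.sum_congr rfl fun i hi => ?_
      have hi' := Finset.mem_range.mp hi
      have e3 : (M + 1) * j + (i + 1) + (M + 1 - 1) = (M + 1) * (j + 1) + i := by
        rw [Nat.add_sub_cancel]; ring
      simp only []
      rw [Nat.mod_mul_right_mod, Nat.mod_mul_right_div_self, e3, e1 _ _ (by omega),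
        e1 _ _ (by omega), e2 _ _ (by omega), e2 _ _ (by omega)]
      ring
    · have e3 : (M + 1) * j + 0 + (M + 1 - 1) = (M + 1) * j + M := by
        rw [Nat.add_sub_cancel]; ring
      simp only []
      rw [Nat.mod_mul_right_mod, Nat.mod_mul_right_div_self, e3, e1 _ _ (by omega),
        e1 _ _ (by omega), e2 _ _ (by omega), e2 _ _ (by omega), Nat.mod_eq_of_lt hj']
      have := sq_one (hc j hj')
      linear_combination (b 0 * b M) * this
  rw [hR] at h1
  rw [hS] at h2
  have hR0 : ∑ j ∈ range k, c j * c ((j + 1) % k) = 0 := by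
    rcases mul_eq_zero.mp h1 with h | h
    · exfalso; omega
    · exact h
  rw [hR0, mul_zero, zero_add] at h2
  have h0 := hb 0 hM
  have h3 := hb M (by omega)
  rcases h0 with h0 | h0 <;> rcases h3 with h3 | h3 <;> rw [h0, h3] at h2 <;> omega

theorem sum_parity (f : ℕ → ℤ) (m : ℕ) (h : ∀ i < m, f i = 1 ∨ f i = -1) :
    ∃ r : ℤ, ∑ i ∈ range m, f i = m + 2 * r := by
  induction m with
  | zero => exact ⟨0, by simp⟩
  | succ m ih =>
    obtain ⟨r, hr⟩ := ih fun i hi => h i (by omega)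
    rw [Finset.sum_range_succ, hr]
    rcases h m (by omega) with h1 | h1
    · exact ⟨r, by rw [h1]; push_cast; ring⟩
    · exact ⟨r - 1, by rw [h1]; push_cast; ring⟩

theorem even_of_row {m k n : ℕ} (hm0 : 0 < m) (hk0 : 0 < k) (hmn : m ∣ n) (hkn : k ∣ n)
    (hn : k < n) (b c : ℕ → ℤ) (hb : ∀ i < m, b i = 1 ∨ b i = -1)
    (hc : ∀ j < k, c j = 1 ∨ c j = -1)
    (h : autocorr (fun x => b (x % m) * c (x % k)) n k = 0) : Even m := by
  obtain ⟨q, rfl⟩ := hmn
  have hq : 0 < q := by
    rcases Nat.eq_zero_or_pos q with h0 | h0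
    · subst h0; simp at hn
    · exact h0
  have e : autocorr (fun x => b (x % m) * c (x % k)) (m * q) k =
      q * ∑ i ∈ range m, b i * b ((i + k) % m) := by
    unfold autocorr
    rw [sum_range_mul']
    have : ∀ j ∈ range q, ∑ i ∈ range m, b ((m * j + i) % m) * c ((m * j + i) % k) *
        (b ((m * j + i + k) % (m * q) % m) * c ((m * j + i + k) % (m * q) % k)) =
        ∑ i ∈ range m, b i * b ((i + k) % m) := by
      intro j _
      refine Finset.sum_congr rfl fun i hi => ?_
      have hi' := Finset.mem_range.mp hi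
      rw [Nat.mod_mul_right_mod, Nat.mod_mod_of_dvd _ hkn, Nat.add_mod_right,
        Nat.mul_add_mod, Nat.mod_eq_of_lt hi', add_assoc, Nat.mul_add_mod]
      have := sq_one (hc ((m * j + i) % k) (Nat.mod_lt _ hk0))
      linear_combination (b i * b ((i + k) % m)) * this
    rw [Finset.sum_congr rfl this]
    simp
  rw [e] at h
  have h0 : ∑ i ∈ range m, b i * b ((i + k) % m) = 0 := by
    rcases mul_eq_zero.mp h with h | h
    · exfalso; omega
    · exact h
  obtain ⟨r, hr⟩ := sum_parity (fun i => b i * b ((i + k) % m)) m (by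
    intro i hi
    have h1 := hb i hi
    have h2 := hb ((i + k) % m) (Nat.mod_lt _ hm0)
    rcases h1 with h1 | h1 <;> rcases h2 with h2 | h2 <;> simp [h1, h2])
  rw [h0] at hr
  rw [Nat.even_iff]
  omega

/-- products of an `m`-periodic and a `k`-periodic sign sequence -/
theorem periodic {m k : ℕ} (hm0 : 0 < m) (hk0 : 0 < k) (hmk : ¬ m ∣ k) (hkm : ¬ k ∣ m)
    (hd : Odd (Nat.gcd m k)) (b c : ℕ → ℤ) (hb : ∀ i < m, b i = 1 ∨ b i = -1)
    (hc : ∀ j < k, c j = 1 ∨ c j = -1) :
    ¬ IsCirculantHadamardRow (fun x => b (x % m) * c (x % k)) (Nat.lcm m k) := by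
  rintro ⟨-, h⟩
  have hlpos : 0 < Nat.lcm m k := Nat.lcm_pos hm0 hk0
  have hk1 : k < Nat.lcm m k := by
    refine lt_of_le_of_ne (Nat.le_of_dvd hlpos (Nat.dvd_lcm_right m k)) fun h1 => hmk ?_
    rw [h1]; exact Nat.dvd_lcm_left m k
  have hm1 : m < Nat.lcm m k := by
    refine lt_of_le_of_ne (Nat.le_of_dvd hlpos (Nat.dvd_lcm_left m k)) fun h1 => hkm ?_
    rw [h1]; exact Nat.dvd_lcm_right m k
  have e1 := even_of_row hm0 hk0 (Nat.dvd_lcm_left m k) (Nat.dvd_lcm_right m k) hk1 b c hb hc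
    (h k hk0 hk1)
  have e2 := even_of_row hk0 hm0 (Nat.dvd_lcm_right m k) (Nat.dvd_lcm_left m k) hm1 c b hc hb (by
    have := h m hm0 hm1
    simp only [mul_comm (b _) (c _)] at this
    exact this)
  rw [← Nat.not_even_iff_odd] at hd
  exact hd (even_iff_two_dvd.mpr (Nat.dvd_gcd (even_iff_two_dvd.mp e1) (even_iff_two_dvd.mp e2)))

end Vale.Agent.P033
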